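import Crest.Agent.X212.Inn9.Cap

/-!
# Row 212, KH-INN (helper9): an innermost disc of a disc or sphere cut along a surface
-/

set_option autoImplicit false
set_option linter.unusedSectionVars false

open Finset Classical

noncomputable section

namespace Crest.Agent.X212.Inn9

open Hp13 Alg36 Sf30
open Hk hiding Inn
open Pt30 (Z1 Qe ch cel ch_mem mx_qe la_eq dom_top)

variable {P : Type} [PartialOrder P] [Fintype P] {X H : Set P} {w : P → P → ℤ}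

theorem sum_jump {Q : Type} [PartialOrder Q] [Fintype Q] {Y : Set Q} {v : Q → Q → ℤ} (h : S1 Y v)
    {c : Ch Q} (hc : c.top ∈ cl Y) (k : 0 < v c.bot c.top) :
    ∑ e ∈ univ.filter (· ≤ c), e.sg * ind (mx v) e = 1 := by
  have m : ∀ x ∈ c.1, x ∈ cl Y := fun x j => cl_low (Ch.le_top j) hc
  rw [← sum_faces_mix (A := {x | v c.bot x = 0}) (c := c)
    ⟨⟨_, c.bot_mem, h.self (m _ c.bot_mem)⟩, _, c.top_mem, k.ne'⟩]
  refine sum_congr rfl fun e he => congrArg _ ?_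
  have l : e ≤ c := (mem_filter.1 he).2
  have a : ∀ x ∈ e.1, v c.bot x = v c.bot e.bot + v e.bot x := fun x j =>
    h.add (m x (l j)) (Ch.bot_anti l) (Ch.bot_le j)
  by_cases j : 0 < v e.bot e.top
  · have := a _ e.top_mem
    have := h.le1 _ _ (m _ (l e.top_mem)) (Ch.bot_le (l e.top_mem))
    have := h.nn _ _ (m _ (l e.bot_mem)) (Ch.bot_anti l)
    rw [ind_of_mem (E := mx v) j, iMt_of (S := {x | v c.bot x = 0})
      ⟨_, e.bot_mem, show v c.bot e.bot = 0 by omega⟩, iMt_of (S := {x | v c.bot x = 0}ᶜ)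
      ⟨_, e.top_mem, show ¬ v c.bot e.top = 0 by omega⟩, one_mul]
  · have b : ∀ x ∈ e.1, v c.bot x = v c.bot e.bot := fun x i => by
      have := a x i
      have := mt (h.pos (m _ (l e.top_mem)) e.bot_mem i (Ch.bot_le i)) j
      have := h.nn _ _ (m _ (l i)) (Ch.bot_le i)
      omega
    rw [ind_of_not (E := mx v) j]
    by_cases i : v c.bot e.bot = 0
    · rw [iMt_not (S := {x | v c.bot x = 0}ᶜ) fun ⟨x, p, q⟩ => q ((b x p).trans i), mul_zero]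
    · rw [iMt_not (S := {x | v c.bot x = 0}) fun ⟨x, p, q⟩ => i ((b x p).symm.trans q), zero_mul]

/-- closed curves have Euler characteristic zero -/
theorem sum_sg (hX : IsUpperSet X) (hM : MfIn H X) (hw : S1 X w) {κ : Set (Ch P)}
    (h1 : κ ⊆ CA X w ∩ Cv H w) (h2 : ∀ c ∈ κ, ∀ e ∈ Cv H w, Cm c e → e ∈ κ) :
    ∑ c ∈ univ.filter (· ∈ κ), c.sg = 0 := by
  have sg : ∀ c : Ch H, (im c).sg = c.sg := fun c => by rw [Ch.sg, Ch.sg, card_im]
  have hv : S1 (Subtype.val ⁻¹' cl X : Set H) (pb Subtype.val w) :=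
    have k : ∀ {y : H}, y ∈ cl (Subtype.val ⁻¹' cl X : Set H) → y.1 ∈ cl X := fun ⟨a, p, q⟩ =>
      cl_low (show _ ≤ a.1 from q) p
    ⟨fun _ _ _ _ _ j => hw.add (k j), fun _ _ j => hw.nn _ _ (k j), fun _ _ j => hw.le1 _ _ (k j)⟩
  have cv : ∀ {e : Ch H}, im e ∈ Cv H w ↔ e ∈ mx (pb Subtype.val w) := fun {e} =>
    (and_iff_right (im_mem e)).trans (by rw [top_im, bot_im]; rfl)
  have h := Mf.dual_sum hM (fun e => ind κ (im e)) fun e he => ind_of_not fun k =>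
    he ⟨_, e.top_mem, by have := (h1 k).1.1; rwa [top_im] at this⟩
  have h3 : ∀ c : Ch H, ∑ e ∈ univ.filter (· ≤ c), e.sg * ind κ (im e) = ind κ (im c) := fun c => by
    by_cases k : im c ∈ κ
    · have t : c.top.1 ∈ X := top_im c ▸ (h1 k).1.1
      rw [ind_of_mem k, ← sum_jump hv (sub_cl (sub_cl t)) (cv.1 (h1 k).2)]
      refine sum_congr rfl fun e he => congrArg _ (if_congr ⟨fun j => cv.1 (h1 j).2, fun j => ?_⟩ rfl rfl)
      exact h2 _ k _ (cv.2 j) (Or.inr (im_mono (mem_filter.1 he).2))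
    · rw [ind_of_not k]
      refine sum_eq_zero fun e he => mul_eq_zero_of_right _ (ind_of_not fun j => k ?_)
      have l := im_mono (mem_filter.1 he).2
      exact h2 _ j _ ⟨im_mem c, (hw.ca_up hX l (h1 j).1).2⟩ (Or.inl l)
  have h4 : ∑ c : Ch H, c.sg * ind κ (im c) = ∑ c ∈ univ.filter (· ∈ κ), c.sg := by
    simp only [ind, mul_ite, mul_one, mul_zero, ← sum_filter]
    refine sum_bij (fun c _ => im c) (fun _ k => by simpa using k) (fun _ _ _ _ k => im_inj k)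
      (fun c k => ?_) fun c _ => (sg c).symm
    obtain ⟨e, rfl⟩ := exists_im (h1 (mem_filter.1 k).2).2.1
    exact ⟨e, by simpa using k, rfl⟩
  simp only [h3, h4] at h
  omega

theorem innStmt : InnStmt := fun P _ _ X H w hX hH hM hw hf hn => by
  obtain ⟨s, hc, h1⟩ : S1 X w ∧ Conn (CA X w) ∧ 1 ≤ chi X w :=
    hw.elim (fun k => ⟨k.toS1, k.conn, k.chi.ge⟩) fun k => ⟨k.toS1, k.conn, by rw [k.chi]; norm_num⟩
  have z := s.z1 hX.up
  have : IsCoc X w := ⟨z.coc⟩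
  have q : CA X w ⊆ Qe X w := mx_qe subset_rfl
  have int : ∀ e ∈ Cv H w, e.top ∈ cl X → e.top ∈ X := fun e k l => by_contra fun j => k.2.ne'
    (hf _ ⟨k.1 _ e.bot_mem, om_low hX.up e.bot_le_top ⟨j, l⟩⟩ _ ⟨k.1 _ e.top_mem, j, l⟩ e.bot_le_top)
  have low : IsLowerSet (ch ⁻¹' (CA X w ∩ Cv H w) : Set (Lv X w)) := fun a b l k =>
    have m : ch b ∈ Cv H w := ⟨fun x j => k.2.1 x (z.ch_le.2 l j), (ch_mem b).2⟩
    ⟨⟨int _ m ((dom_iff' hX.up).1 (ch_mem b).1), m.2⟩, m⟩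
  have up : IsUpperSet (ch ⁻¹' CA X w : Set (Lv X w)) := fun a b l k => s.ca_up hX.up (z.ch_le.2 l) k
  have col : Col (ch ⁻¹' CA X w : Set (Lv X w)) (ch ⁻¹' (CA X w ∩ Cv H w)) (ch ⁻¹' (CA X w \ Cv H w)) :=
    ⟨by rw [← Set.preimage_union, Set.inter_union_sdiff], Disjoint.preimage _ disjoint_inf_sdiff⟩
  have hB := z.mf hX.mf (S := CA X w) subset_rfl
  have cB := (z.conn_pre q).2 hc
  simp only [Flat, not_forall] at hn
  obtain ⟨x, hx, y, hy, l, k⟩ := hn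
  have e1 : Ch.pr x y l ∈ Cv H w :=
    ⟨by simpa using ⟨hx.1, hy.1⟩, by have := s.nn x y hy.2 l; simp; omega⟩
  have e2 : Ch.pr x y l ∈ CA X w := ⟨int _ e1 (by simpa using hy.2), e1.2⟩
  obtain ⟨t, t1, t2⟩ := hX.mf.pure _ ((mt_iff hX.up).2 e2.1)
  have t3 := s.ca_up hX.up t1 e2
  have n1 : (ch ⁻¹' (CA X w ∩ Cv H w) : Set (Lv X w)).Nonempty := ⟨cel (q e2), e2, e1⟩
  have n2 : (ch ⁻¹' (CA X w \ Cv H w) : Set (Lv X w)).Nonempty := ⟨cel (q t3), t3, fun j => by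
    obtain ⟨t, rfl⟩ := exists_im j.1
    have := hM.card_le t ⟨_, t.top_mem, by have := t3.1; rwa [top_im] at this⟩
    rw [card_im] at t2
    omega⟩
  obtain ⟨R, r, e, i⟩ := inn_circ hB col cB n1 n2
    (by rwa [Sf30.chi_eq_chiC z.mono, chiC_eq_eu hX.mf z.mono subset_rfl la_upper, la_eq hX.up] at h1)
    fun c ⟨⟨a, ha, k⟩, _⟩ ⟨x, hx, j⟩ => j ((c.total ha hx).elim (up · k.1) fun l => (low l k).1)
  rcases id r with r' | r'
  · obtain ⟨κ, k1, rfl⟩ := z.cmp_ex (Set.inter_subset_left.trans q) r'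
    have : IsLowerSet (ch ⁻¹' κ : Set (Lv X w)) := fun a b l k => r'.clopen k (low l (r'.sub k)) (Or.inr l)
    rw [← ee_lower this, ← chiC_eq_ee hX.mf z.mono (la_eq hX.up ▸ r.sub col),
      z.chiC_pre (fun _ j => q (k1.sub j).1), sum_sg hX.up hM s k1.sub fun c j e m l => k1.clopen j
        ⟨⟨int e m (l.elim (fun l => sub_cl (hX.up (Ch.top_mono l) (k1.sub j).1.1)) fun l =>
          cl_low (Ch.top_mono l) (sub_cl (k1.sub j).1.1)), m.2⟩, m⟩ l] at e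
    omega
  obtain ⟨D, k1, rfl⟩ := z.cmp_ex (Set.sdiff_subset.trans q) r'
  have qD : D ⊆ Qe X w := fun _ j => q (k1.sub j).1
  have qe : ∀ c ∈ D, ∀ e, e ≤ c → 0 < w e.bot e.top → e ∈ Qe X w := fun c j e l m => ⟨(qD j).1.mono l, m⟩
  have bt : ∀ C ∈ mix (ch ⁻¹' D : Set (Lv X w)), ch C.bot ∈ {e | e ∈ Cv H w ∧ ∃ c ∈ D, e ≤ c} :=
    fun C ⟨⟨a, ha, j⟩, b, hb, m⟩ => ⟨(low (Ch.bot_le hb) ((col.cases (i a j b (C.cm ha hb))).resolve_right
      fun n => m (r'.clopen j n (C.cm ha hb)))).2, _, j, z.ch_le.2 (Ch.bot_le ha)⟩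
  refine ⟨D, k1, (z.eu_pre qD).symm.trans e, fun c j e l m =>
    (i (cel (qD j)) j (cel (qe c j e l m)) (Or.inr (z.ch_le.1 l))).1, ?_, ?_⟩
  · obtain ⟨C, c1, c2⟩ := r.exists_if col cB n1 n2
    obtain ⟨a, c, b, d⟩ := bt C (r.mix col c1 c2)
    exact ⟨c, b, _, a, d⟩
  · have m : ∀ e ∈ {e | e ∈ Cv H w ∧ ∃ c ∈ D, e ≤ c}, ∃ C ∈ mix (ch ⁻¹' D : Set (Lv X w)), ch C.bot = e :=
      fun e ⟨a, c, b, d⟩ =>
        have l : cel (qe c b e d a.2) ≤ cel (qD b) := z.ch_le.1 d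
        ⟨pr (Or.inl l), ⟨⟨_, (mem_pr _).2 (Or.inr rfl), b⟩, _, (mem_pr _).2 (Or.inl rfl),
          fun j => (k1.sub j).2 a⟩, by rw [bot_pr l]; rfl⟩
    intro a ha b hb
    obtain ⟨A, a1, rfl⟩ := m a ha
    obtain ⟨B, b1, rfl⟩ := m b hb
    exact (conn_mix2 (hB.mono (r.sub col)) r.conn e.ge A a1 B b1).map (f := fun C => ch C.bot)
      fun u hu v hv l => Rch.of_cm (bt u hu) (bt v hv) (Or.inr (z.ch_le.2 (Ch.bot_anti l)))

end Crest.Agent.X212.Inn9
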