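import Crest.Agent.X212.Kh11.Bas

/-!
# Row 212, KH-INN (helper9): innermost discs in a disc
-/

set_option autoImplicit false
set_option linter.unusedSectionVars false

open Finset Classical

noncomputable section

namespace Crest.Agent.X212.Inn9

open Hp13 Alg36 Sf30
open Hk hiding Inn
open Kh11 (WS)

section core
variable {Q : Type} [PartialOrder Q] [Fintype Q] {B R : Set Q} {ψ : Q → ℤ}

/-- the even points -/
def Ev (B : Set Q) (ψ : Q → ℤ) : Set Q := {a | a ∈ B ∧ Even (ψ a)}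

/-- jumps `0` or `1` -/
def J1 (B : Set Q) (ψ : Q → ℤ) : Prop := ∀ a ∈ B, ∀ b ∈ B, a ≤ b → ψ b = ψ a ∨ ψ b = ψ a + 1

theorem col_ev : Col B (Ev B ψ) (B \ Ev B ψ) := col_diff fun _ h => h.1

theorem if_of {c : Ch Q} {a b : Q} (ha : a ∈ c.1) (hb : b ∈ c.1) (h1 : a ∈ B) (h2 : b ∈ B)
    (e : ψ b = ψ a + 1) : c ∈ If (Ev B ψ) (B \ Ev B ψ) := by
  by_cases k : Even (ψ a)
  · exact ⟨⟨a, ha, h1, k⟩, b, hb, h2, fun j => by have := j.2; rw [e, Int.even_add_one] at this; exact this k⟩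
  · exact ⟨⟨b, hb, h2, by rwa [e, Int.even_add_one]⟩, a, ha, h1, fun j => k j.2⟩

theorem of_if (hψ : J1 B ψ) {c : Ch Q} (h : c ∈ If (Ev B ψ) (B \ Ev B ψ)) :
    ∃ a ∈ c.1, ∃ b ∈ c.1, a ∈ B ∧ b ∈ B ∧ a ≤ b ∧ ψ b = ψ a + 1 := by
  obtain ⟨⟨a, ha, h1, k⟩, b, hb, h2, l⟩ := h
  have n : ψ b ≠ ψ a := fun e => l ⟨h2, e ▸ k⟩
  rcases c.total ha hb with j | j
  · exact ⟨a, ha, b, hb, h1, h2, j, (hψ a h1 b h2 j).resolve_left n⟩
  · exact ⟨b, hb, a, ha, h2, h1, j, (hψ b h2 a h1 j).resolve_left n.symm⟩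

theorem core (hB : Mf 2 B) (hψ : J1 B ψ) (hc : Conn B) {c : Ch Q} (h : c ∈ If (Ev B ψ) (B \ Ev B ψ))
    (r : Reg (Ev B ψ) (B \ Ev B ψ) R) (e : eu R = 1) (i : Inn B R) :
    R ⊆ B ∧ Ctr R ∧ (∀ a ∈ R, ∀ x, Cm a x → x ∈ B ∧ (x ∈ R ↔ ψ x = ψ a)) ∧
      (∃ a ∈ R, ∃ x, x ∉ R ∧ Cm a x) ∧ (IsUpperSet R ∨ IsLowerSet R) := by
  have s := r.sub col_ev
  have k : ∀ a ∈ R, ∀ x, Cm a x → (x ∈ R ↔ ψ x = ψ a) := fun a ha x l => by
    have hx := i a ha x l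
    have p : x ∈ R ↔ (Even (ψ x) ↔ Even (ψ a)) := by
      rcases r with r | r
      · exact ⟨fun j => iff_of_true (r.sub j).2 (r.sub ha).2,
          fun j => r.clopen ha ⟨hx, j.2 (r.sub ha).2⟩ l⟩
      · have q : ∀ y ∈ R, ¬ Even (ψ y) := fun y hy j => (r.sub hy).2 ⟨s hy, j⟩
        exact ⟨fun j => iff_of_false (q x j) (q a ha),
          fun j => r.clopen ha ⟨hx, fun m => q a ha (j.1 m.2)⟩ l⟩
    refine p.trans ⟨fun j => ?_, fun j => by rw [j]⟩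
    rcases l with l | l
    · exact (hψ a (s ha) x hx l).resolve_right fun m => by rw [m, Int.even_add_one] at j; tauto
    · exact ((hψ x hx a (s ha) l).resolve_right fun m => by rw [m, Int.even_add_one] at j; tauto).symm
  obtain ⟨d, d1, d2⟩ := r.exists_if col_ev hc (let ⟨a, _, j⟩ := h.1; ⟨a, j⟩) (let ⟨a, _, j⟩ := h.2; ⟨a, j⟩)
  have d3 := r.mix col_ev d1 d2
  obtain ⟨⟨a, ha, aR⟩, x, hx, xR⟩ := id d3
  have cm := conn_mix2 (hB.mono s) r.conn e.ge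
  have c0 : ∀ b ∈ R, ψ b = ψ a := fun b hb =>
    (r.conn b hb a aR).eq fun u hu v hv l => ((k u hu v (Or.inl l)).1 hv).symm
  have c1 : ∀ c ∈ mix R, (∀ y ∈ c.1, y ∈ B) ∧ ψ c.top = ψ c.bot + 1 := fun c ⟨⟨b, hb, bR⟩, y, hy, yR⟩ => by
    have m : ∀ y ∈ c.1, y ∈ B := fun y hy => i b bR y (c.cm hb hy)
    have := mt (k b bR y (c.cm hb hy)).2 yR
    have := hψ _ (m _ c.bot_mem) _ (m _ c.top_mem) c.bot_le_top
    have := hψ _ (m _ c.bot_mem) _ (m _ hb) (Ch.bot_le hb)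
    have := hψ _ (m _ c.bot_mem) _ (m _ hy) (Ch.bot_le hy)
    have := hψ _ (m _ hb) _ (m _ c.top_mem) (Ch.le_top hb)
    have := hψ _ (m _ hy) _ (m _ c.top_mem) (Ch.le_top hy)
    exact ⟨m, by omega⟩
  have c2 : ∀ c ∈ mix R, ψ c.top = ψ d.top := fun c hc =>
    (cm c hc d d3).eq (g := fun c => ψ c.top) fun u hu v hv l => by
      obtain ⟨u1, u2⟩ := c1 u hu
      obtain ⟨v1, v2⟩ := c1 v hv
      have := hψ _ (u1 _ u.top_mem) _ (v1 _ v.top_mem) (Ch.top_mono l)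
      have := hψ _ (v1 _ v.bot_mem) _ (u1 _ u.bot_mem) (Ch.bot_anti l)
      omega
  refine ⟨s, Mf.ctr_of_eu hB s r.conn (esc_of s r.conn aR xR (d.cm ha hx)) e.ge,
    fun a ha x l => ⟨i a ha x l, k a ha x l⟩, ⟨a, aR, x, xR, d.cm ha hx⟩, ?_⟩
  by_cases t : ψ d.top = ψ a
  · refine Or.inl fun u v l hu => by_contra fun hv => hv ((k u hu v (Or.inl l)).2 ?_)
    have := c2 _ (pr_mix hu hv (Or.inl l))
    rw [top_pr l] at this
    rw [this, t, c0 u hu]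
  · refine Or.inr fun u v l hu => by_contra fun hv => t ?_
    have := c2 (pr (Or.inl l)) ⟨⟨u, (mem_pr _).2 (Or.inr rfl), hu⟩, v, (mem_pr _).2 (Or.inl rfl), hv⟩
    rw [top_pr l] at this
    rw [← this, c0 u hu]

end core

variable {P : Type} [PartialOrder P] [Fintype P] {X H : Set P} {w u : P → P → ℤ}

theorem ws_val {Z : Set P} (h : Z ⊆ H) : WS (Subtype.val ⁻¹' Z : Set H) Z Subtype.val :=
  WS.of_iso (fun _ k => k) (fun y k => ⟨⟨y, h k⟩, k, rfl⟩) fun _ _ _ _ => Iff.rfl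

theorem fin (hX : IsUpperSet X) (hH : IsLowerSet H) (hw : S1 X w) {Z : Set H} (hZ : ∀ a ∈ Z, a.1 ∈ X)
    (c : Ctr Z) (h : ∀ x y : H, x ≤ y → x ∈ Z ∨ y ∈ Z → ((x ∈ Z ↔ y ∈ Z) ↔ w x y = 0))
    (ne : ∃ a ∈ Z, ∃ x, x ∉ Z ∧ Cm a x) (ul : IsUpperSet Z ∨ IsLowerSet Z) : ¬ NoCap H X w := fun n => by
  have m : ∀ x : H, x.1 ∈ Subtype.val '' Z ↔ x ∈ Z := fun x => Subtype.val_injective.mem_set_image
  have s : Subtype.val '' Z ⊆ H ∩ X := by rintro _ ⟨a, k, rfl⟩; exact ⟨a.2, hZ a k⟩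
  have c' : Ctr (Subtype.val '' Z) := (ws_val (s.trans Set.inter_subset_left)).ctr_iff.1 (by
    rwa [Set.preimage_image_eq _ Subtype.val_injective])
  have f : Flat (Subtype.val '' Z) w := by
    rintro _ ⟨a, k, rfl⟩ _ ⟨b, l, rfl⟩ j
    exact (h a b j (Or.inl k)).1 (iff_of_true k l)
  obtain ⟨a, ha, x, hx, l⟩ := ne
  rcases ul with ul | ul
  · refine (n _).1 ⟨s, c', f, ?_, ?_, a, (m a).2 ha, x, l.resolve_left fun j => hx (ul j ha), mt (m x).1 hx⟩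
    · rintro _ ⟨a, k, rfl⟩ y hy j
      exact ⟨⟨y, hy⟩, ul (show a ≤ ⟨y, hy⟩ from j) k, rfl⟩
    · rintro _ ⟨b, k, rfl⟩ y j i
      exact (hw.cases (sub_cl (hZ b k)) j).resolve_left fun e =>
        i ((m ⟨y, hH j b.2⟩).2 (((h ⟨y, hH j b.2⟩ b j (Or.inr k)).2 e).2 k))
  · refine (n _).2 ⟨s, c', f, ?_, ?_, a, (m a).2 ha, x, x.2, l.resolve_right fun j => hx (ul j ha),
      mt (m x).1 hx⟩
    · rintro _ y j ⟨a, k, rfl⟩
      exact ⟨⟨y, hH j a.2⟩, ul (show (⟨y, hH j a.2⟩ : H) ≤ a from j) k, rfl⟩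
    · rintro _ ⟨b, k, rfl⟩ y hy j i
      exact (hw.cases (sub_cl (hX j (hZ b k))) j).resolve_left fun e =>
        i ((m ⟨y, hy⟩).2 (((h b ⟨y, hy⟩ j (Or.inl k)).2 e).1 k))

theorem capStmt : CapStmt := fun P _ _ X H w u hX hH hM hw ⟨Z, z1, z2, z3, z4⟩ hu h => by
  have one : ∀ x ∈ H, ∀ y ∈ H, x ≤ y → ¬ (x ∈ Z ↔ y ∈ Z) → w x y = 1 := fun x hx y hy l k =>
    ((h x hx y hy l).resolve_left fun j => k ((z4.iff hx hy l).1 j)).2
  have c := (ws_val z1).ctr_iff.2 z3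
  by_cases f : Flat Z w
  · refine fin hX hH hw (fun a k => z2 k) c (fun x y l k => ⟨fun j => ?_, fun j => by_contra fun i => ?_⟩) ?_ ?_
    · exact f _ (k.elim id j.2) _ (k.elim j.1 id) l
    · simp [one _ x.2 _ y.2 l i] at j
    · by_contra! k
      refine hu fun x hx y hy l => (z4.iff hx hy l).2 ⟨fun j => by_contra fun i => ?_, fun j => by_contra fun i => ?_⟩
      exacts [k ⟨x, hx⟩ j ⟨y, hy⟩ i (Or.inl l), k ⟨y, hy⟩ j ⟨x, hx⟩ i (Or.inr l)]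
    · refine z4.imp (fun e x y l k => by_contra fun j => ?_) fun e y x l k => by_contra fun j => ?_
      all_goals
        have := h _ x.2 _ y.2 l
        rw [e _ x.2 _ y.2 l] at this
        simp [cb, ind_of_mem (E := Z) k, ind_of_not (E := Z) j] at this
  obtain ⟨g, hg⟩ := z3.ex ℤ w (cocOn_mono hw.coc (z2.trans sub_cl))
  have hB : Mf 2 (Subtype.val ⁻¹' Z : Set H) := Mf.mono hM fun _ k => z2 k
  have j1 : J1 (Subtype.val ⁻¹' Z : Set H) (g ∘ Subtype.val) := fun a ha b hb l => by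
    have := hg _ ha _ hb l
    have := hw.cases (sub_cl (z2 hb)) (show a.1 ≤ b.1 from l)
    simp only [Function.comp]; omega
  obtain ⟨d, hd⟩ : (If (Ev (Subtype.val ⁻¹' Z : Set H) (g ∘ Subtype.val)) (_ \ Ev _ _)).Nonempty := by
    simp only [Flat, not_forall] at f
    obtain ⟨x, hx, y, hy, l, k⟩ := f
    refine ⟨_, if_of (c := Ch.pr ⟨x, z1 hx⟩ ⟨y, z1 hy⟩ l) (a := ⟨x, z1 hx⟩) (b := ⟨y, z1 hy⟩) (by simp)
      (by simp) hx hy ?_⟩
    have := hg _ hx _ hy l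
    have := hw.cases (sub_cl (z2 hy)) l
    simp only [Function.comp]; omega
  obtain ⟨R, r, e, i⟩ := inn_circ hB col_ev c.conn (let ⟨a, _, j⟩ := hd.1; ⟨a, j⟩)
    (let ⟨a, _, j⟩ := hd.2; ⟨a, j⟩) c.eu.ge fun c hc ⟨x, hx, k⟩ => by
      obtain ⟨a, ha, b, hb, a1, b1, l, e⟩ := of_if j1 hc
      have := hg _ a1 _ b1 l
      have b2 := sub_cl (z2 b1)
      simp only [Function.comp] at e
      rcases c.total hx ha with p | p
      · have := hw.add b2 (show x.1 ≤ a.1 from p) l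
        have := one _ x.2 _ a.2 p fun j => k (j.2 a1)
        have := hw.le1 _ _ b2 (show x.1 ≤ b.1 from p.trans l)
        omega
      have := one _ a.2 _ x.2 p fun j => k (j.1 a1)
      rcases c.total hx hb with q | q
      · have := hw.add b2 (show a.1 ≤ x.1 from p) q
        have := one _ x.2 _ b.2 q fun j => k (j.2 b1)
        omega
      · have := hw.add (sub_cl (hX (show b.1 ≤ x.1 from q) (z2 b1))) (show a.1 ≤ b.1 from l) q
        have := one _ b.2 _ x.2 q fun j => k (j.1 b1)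
        omega
  obtain ⟨s, c1, c2, c3, c4⟩ := core hB j1 c.conn hd r e i
  refine fin hX hH hw (fun a k => z2 (s k)) c1 (fun x y l k => ?_) c3 c4
  rcases k with k | k
  · obtain ⟨p, q⟩ := c2 x k y (Or.inl l)
    rw [hg _ (s k) _ p l, sub_eq_zero, iff_true_intro k, true_iff]
    exact q
  · obtain ⟨p, q⟩ := c2 y k x (Or.inr l)
    rw [hg _ p _ (s k) l, sub_eq_zero, iff_true_intro k, iff_true, eq_comm]
    exact q

/-- a chain of `H` as a chain of `P` -/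
def im (c : Ch H) : Ch P := Ch.img Subtype.val (fun _ _ h => h) c

theorem top_im (c : Ch H) : (im c).top = c.top := Ch.top_img _ c
theorem bot_im (c : Ch H) : (im c).bot = c.bot := Ch.bot_img _ c
theorem im_mono : Monotone (im : Ch H → Ch P) := Ch.img_mono (f := Subtype.val) fun _ _ h => h
theorem im_mem (c : Ch H) : ∀ x ∈ (im c).1, x ∈ H := fun _ h =>
  let ⟨a, _, e⟩ := Ch.mem_img.1 h; e ▸ a.2
theorem card_im (c : Ch H) : (im c).1.card = c.1.card := card_image_of_injective _ Subtype.val_injective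
theorem im_inj : Function.Injective (im : Ch H → Ch P) := fun _ _ e =>
  Ch.ext (image_injective Subtype.val_injective (congrArg Subtype.val e))

theorem exists_im {c : Ch P} (h : ∀ x ∈ c.1, x ∈ H) : ∃ e : Ch H, im e = c :=
  ⟨Ch.mk' (univ.filter (·.1 ∈ c.1)) ⟨⟨_, h _ c.top_mem⟩, by simpa using c.top_mem⟩ fun x hx y hy =>
    c.total (by simpa using hx) (by simpa using hy), Ch.ext (Finset.ext fun x => Ch.mem_img.trans
      ⟨by rintro ⟨y, k, rfl⟩; simpa [Ch.mk'] using k, fun k => ⟨⟨x, h x k⟩, by simpa [Ch.mk'] using k, rfl⟩⟩)⟩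

theorem ctr_bot {Q : Type} [PartialOrder Q] [Fintype Q] (Z : Set Q) :
    Ctr (Ch.bot ⁻¹' Z : Set (Ch Q)) ↔ Ctr Z :=
  (WS.of_int' (D := Kh11.In Z Set.univ) (fun c k => k.1 _ c.bot_mem) fun c k =>
    ⟨c.sub (c.1.filter (· ∈ Z)) ⟨_, mem_filter.2 ⟨c.bot_mem, k⟩⟩ (filter_subset _ _),
      ⟨fun _ j => (mem_filter.1 j).2, trivial⟩, filter_subset _ _,
      fun _ j l x i => mem_filter.2 ⟨l i, j.1 x i⟩⟩).ctr_iff.symm.trans (Kh11.ws_top Z).ctr_iff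

theorem circStmt : CircStmt := fun P _ _ X H w κ hX hH hM hC ⟨x, hx, y, hy, xX, xy⟩ hw ⟨e, he⟩ hκ ht => by
  obtain ⟨g, hg⟩ := hC.ex ℤ w (cocOn_mono hw.coc (Set.inter_subset_right.trans sub_cl))
  let B : Set (Ch H) := Ch.top ⁻¹' (Subtype.val ⁻¹' X)
  let ψ : Ch H → ℤ := fun c => w c.bot c.top - g c.top
  have hB : Mf 2 B := Mf.sd hM
  have up : IsUpperSet B := fun _ _ l k => hX (show _ ≤ _ from Ch.top_mono l) k
  have c : Ctr B := (Kh11.ce_top.ws_pre _).ctr_iff.2 (by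
    have := (ws_val (H := H) Set.inter_subset_left).ctr_iff.2 hC
    rwa [Set.preimage_inter, Subtype.coe_preimage_self, Set.univ_inter] at this)
  have dψ : ∀ a ∈ B, ∀ b, a ≤ b → ψ b = ψ a + w b.bot a.bot := fun a ha b l => by
    have hb := up l ha
    have l1 : a.top.1 ≤ b.top.1 := Ch.top_mono l
    have l2 : b.bot.1 ≤ a.bot.1 := Ch.bot_anti l
    have := hg _ ⟨a.top.2, ha⟩ _ ⟨b.top.2, hb⟩ l1
    have := hw.add (sub_cl hb) l2 (le_trans a.bot_le_top l1)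
    have := hw.add (sub_cl hb) (show a.bot.1 ≤ a.top.1 from a.bot_le_top) l1
    simp only [ψ]; omega
  have bc : ∀ a ∈ B, a.bot.1 ∈ cl X := fun a ha => cl_low (show a.bot.1 ≤ a.top.1 from a.bot_le_top) (sub_cl ha)
  have j1 : J1 B ψ := fun a ha b _ l => by
    have := dψ a ha b l
    have := hw.cases (bc a ha) (show b.bot.1 ≤ a.bot.1 from Ch.bot_anti l)
    omega
  have cv : ∀ {a : Ch H}, a.top.1 ∈ cl X → 0 < w a.bot a.top → im a ∈ Cv (H ∩ cl X) w := fun {a} k l =>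
    ⟨fun z j => ⟨im_mem a z j, cl_low (Ch.le_top j) (top_im a ▸ k)⟩, by rwa [top_im, bot_im]⟩
  have fc : ∀ C ∈ If (Ev B ψ) (B \ Ev B ψ), ∃ a ∈ C.1, a ∈ B ∧ ∃ q : Ch H, q ≤ C.top ∧ q.top = a.bot ∧
      im q ∈ Cv (H ∩ cl X) w ∧ im C.top ∈ Cv (H ∩ cl X) w := fun C hC => by
    obtain ⟨a, ha, b, hb, a1, b1, l, k⟩ := of_if j1 hC
    have := dψ a a1 b l
    have q1 : Ch.pr b.bot a.bot (Ch.bot_anti l) ≤ C.top := le_trans (fun z j => by
      rcases (by simpa using j : z = b.bot ∨ z = a.bot) with rfl | rfl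
      exacts [b.bot_mem, l a.bot_mem]) (Ch.le_top hb)
    have q2 := cv (a := Ch.pr b.bot a.bot (Ch.bot_anti l)) (by simpa using bc a a1) (by simp; omega)
    have q3 : (im C.top).top ∈ cl X := top_im C.top ▸ sub_cl (up (Ch.le_top hb) b1)
    exact ⟨a, ha, a1, _, q1, by simp, q2, fun z j => ⟨im_mem _ z j, cl_low (Ch.le_top j) q3⟩,
      hw.up q3 (im_mono q1) q2.2⟩
  obtain ⟨e, rfl⟩ := exists_im fun x k => ((hκ.sub he).1 x k).1
  have eB : e ∈ B := by have := ht _ he; rwa [top_im] at this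
  have e1 : Ch.pt e.top ≤ e := Ch.pt_le.2 e.top_mem
  have e2 : Ch.pr _ _ e1 ∈ If (Ev B ψ) (B \ Ev B ψ) :=
    if_of (a := Ch.pt e.top) (b := e) (by simp) (by simp) (by simpa [B] using eB) eB (by
      have := dψ _ (by simpa [B] using eB) e e1
      have := (hκ.sub he).2
      have := hw.le1 _ _ (sub_cl eB) (show e.bot.1 ≤ e.top.1 from e.bot_le_top)
      simp only [top_im, bot_im, Ch.bot_pt] at *
      omega)
  obtain ⟨R, r, e, i⟩ := inn_disc hB col_ev c.conn c.eu.ge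
    (Or.inl ⟨_, pr_mix (a := Ch.pr (⟨x, hx⟩ : H) ⟨y, hy.1⟩ xy) (x := Ch.pt ⟨x, hx⟩)
      (by simpa [B] using hy.2) (by simpa [B] using xX) (Or.inr (Ch.pt_le.2 (by simp)))⟩)
    (c₀ := Ch.pr _ _ e1) ⟨e2, fun C rc ⟨b, hb, k⟩ => by
      have m : im C.top ∈ κ := rc.ind (p := fun C => im C.top ∈ κ) (by simpa using he) fun s hs t ht l =>
        let ⟨_, _, _, _, _, _, _, s1⟩ := fc s hs
        let ⟨_, _, _, _, _, _, _, t1⟩ := fc t ht
        ⟨fun j => hκ.cl _ j _ t1 (Or.inl (im_mono (Ch.top_mono l))),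
          fun j => hκ.cl _ j _ s1 (Or.inr (im_mono (Ch.top_mono l)))⟩
      obtain ⟨a, ha, a1, q, q1, q2, q3, -⟩ := fc C (rc.mem e2)
      have := ht _ (hκ.cl _ m _ q3 (Or.inr (im_mono q1)))
      rw [top_im, q2] at this
      exact k (hX (show a.bot.1 ≤ b.top.1 from (Ch.bot_anti ((C.total hb ha).resolve_right
        fun j => k (up j a1))).trans b.bot_le_top) this)⟩
  obtain ⟨s, c1, c2, ⟨a, ha, b, hb, ab⟩, c4⟩ := core hB j1 c.conn e2 r e i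
  have m : ∀ d, d ∈ R ↔ Ch.pt d.bot ∈ R := fun d => by
    have l : Ch.pt d.bot ≤ d := Ch.pt_le.2 d.bot_mem
    have z : Ch.pt d.bot ∈ B → ψ d = ψ (Ch.pt d.bot) := fun k => by
      rw [dψ _ k d l, Ch.bot_pt, hw.self (by simpa using bc _ k), add_zero]
    exact ⟨fun k => let ⟨p, q⟩ := c2 d k _ (Or.inr l); q.2 (z p).symm,
      fun k => (c2 _ k d (Or.inl l)).2.2 (z (s k))⟩
  have m' : ∀ (x y : H) (l : x ≤ y), Ch.pt x ∈ R ↔ Ch.pr x y l ∈ R := fun x y l => by rw [m (Ch.pr ..), Ch.bot_pr]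
  have l' : ∀ (x y : H) (l : x ≤ y), Ch.pt y ≤ Ch.pr x y l := fun x y l => Ch.pt_le.2 (by simp)
  refine fin (Z := {x | Ch.pt x ∈ R}) hX hH hw (fun a k => by simpa [B] using s k)
    ((ctr_bot _).1 (by convert c1 using 1; exact Set.ext fun d => (m d).symm)) (fun x y l k => ?_)
    ⟨a.bot, (m a).1 ha, b.bot, mt (m b).2 hb, ab.symm.imp (Ch.bot_anti ·) (Ch.bot_anti ·)⟩
    (c4.symm.imp (fun j x y l k => j (l' x y l) ((m' x y l).1 k)) fun j y x l k => (m' x y l).2 (j (l' x y l) k))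
  have z : Ch.pt y ∈ B → ψ (Ch.pr x y l) = ψ (Ch.pt y) + w x y := fun k => by
    rw [dψ _ k _ (l' x y l), Ch.bot_pt, Ch.bot_pr]
  simp only [Set.mem_ofPred_eq, m' x y l] at k ⊢
  rcases k with k | k
  · obtain ⟨p, q⟩ := c2 _ k _ (Or.inr (l' x y l))
    rw [iff_true_intro k, true_iff, q, z p, left_eq_add]
  · rw [iff_true_intro k, iff_true, (c2 _ k _ (Or.inl (l' x y l))).2, z (s k), add_eq_left]

end Crest.Agent.X212.Inn9
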